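import Mathlib.LinearAlgebra.Matrix.SpecialLinearGroup
import Mathlib.LinearAlgebra.Matrix.ToLin
import Mathlib.LinearAlgebra.Projection
import Mathlib.LinearAlgebra.Basis.VectorSpace
import Mathlib.RingTheory.Artinian.Module
import Mathlib.RingTheory.Noetherian.Basic
import Mathlib.Analysis.Complex.Polynomial.Basic
import Mathlib.Topology.Instances.Matrix
import Mathlib.Topology.Perfect
import Mathlib.Tactic.NoncommRing

/-!
# P002: semisimplification of a representation inside the closure of its orbit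
-/

open Matrix

namespace Vale.Agent.P002S14

variable {G : Type} {r : ℕ}

/-- invariant subspaces -/
def Inv (ρ : G → Matrix (Fin r) (Fin r) ℂ) (W : Submodule ℂ (Fin r → ℂ)) : Prop :=
  ∀ g, ∀ v ∈ W, ρ g *ᵥ v ∈ W

/-- irreducible subspaces -/
def Irr (ρ : G → Matrix (Fin r) (Fin r) ℂ) (U : Submodule ℂ (Fin r → ℂ)) : Prop :=
  Inv ρ U ∧ U ≠ ⊥ ∧ ∀ U' ≤ U, Inv ρ U' → U' = ⊥ ∨ U' = U

/-- the socle -/
def Soc (ρ : G → Matrix (Fin r) (Fin r) ℂ) : Submodule ℂ (Fin r → ℂ) := sSup {U | Irr ρ U}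

variable {ρ ρ' : G → Matrix (Fin r) (Fin r) ℂ} {U W : Submodule ℂ (Fin r → ℂ)}

theorem Inv.sup (h : Inv ρ U) (h' : Inv ρ W) : Inv ρ (U ⊔ W) := by
  intro g v hv
  obtain ⟨a, ha, b, hb, rfl⟩ := Submodule.mem_sup.1 hv
  rw [mulVec_add]
  exact Submodule.add_mem_sup (h g a ha) (h' g b hb)

theorem Inv.inf (h : Inv ρ U) (h' : Inv ρ W) : Inv ρ (U ⊓ W) :=
  fun g v hv => ⟨h g v hv.1, h' g v hv.2⟩

theorem inv_soc : Inv ρ (Soc ρ) := by
  intro g
  have : Soc ρ ≤ (Soc ρ).comap (ρ g).mulVecLin :=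
    sSup_le fun U hU v hv => (le_sSup hU : U ≤ Soc ρ) (hU.1 g v hv)
  exact fun v hv => this hv

theorem exists_irr (h : Inv ρ W) (h0 : W ≠ ⊥) : ∃ U ≤ W, Irr ρ U := by
  obtain ⟨U, ⟨h1, h2, h3⟩, hm⟩ := (wellFounded_lt (α := Submodule ℂ (Fin r → ℂ))).has_min
    {U | U ≤ W ∧ Inv ρ U ∧ U ≠ ⊥} ⟨W, le_rfl, h, h0⟩
  refine ⟨U, h1, h2, h3, fun U' hU hi => ?_⟩
  by_contra hc
  push Not at hc
  exact hm U' ⟨hU.trans h1, hi, hc.1⟩ (lt_of_le_of_ne hU hc.2)

theorem compl_of_soc (hs : Soc ρ = ⊤) (h : Inv ρ W) : ∃ W', Inv ρ W' ∧ IsCompl W W' := by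
  obtain ⟨W', ⟨h1, h2⟩, hm⟩ := (wellFounded_gt (α := Submodule ℂ (Fin r → ℂ))).has_min
    {W' | Inv ρ W' ∧ Disjoint W W'}
    ⟨⊥, fun g v hv => by rw [(Submodule.mem_bot ℂ).1 hv, mulVec_zero]; exact zero_mem _,
      disjoint_bot_right⟩
  refine ⟨W', h1, h2, codisjoint_iff.2 (top_le_iff.1 ?_)⟩
  rw [← hs]
  refine sSup_le fun U hU => ?_
  rcases hU.2.2 (U ⊓ (W ⊔ W')) inf_le_left (hU.1.inf (h.sup h1)) with e | e
  · have hd : Disjoint (W ⊔ W') U := (disjoint_iff.2 e).symm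
    have h3 : Disjoint W (W' ⊔ U) := h2.disjoint_sup_right_of_disjoint_sup_left hd
    have h4 : W' ⊔ U = W' := by
      by_contra hc
      exact hm _ ⟨h1.sup hU.1, h3⟩ (lt_of_le_of_ne le_sup_left (Ne.symm hc))
    exact (le_sup_right.trans h4.le).trans le_sup_right
  · exact e ▸ inf_le_right

theorem irr_congr (e : ∀ g, ∀ v ∈ W, ρ' g *ᵥ v = ρ g *ᵥ v) (hU : U ≤ W) (h : Irr ρ U) :
    Irr ρ' U :=
  ⟨fun g v hv => by rw [e g v (hU hv)]; exact h.1 g v hv, h.2.1, fun U' hU' hi =>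
    h.2.2 U' hU' fun g v hv => by rw [← e g v (hU (hU' hv))]; exact hi g v hv⟩

/-- the family which contracts the off-diagonal block -/
def F (π : Matrix (Fin r) (Fin r) ℂ) (t : ℂ) (a : Matrix (Fin r) (Fin r) ℂ) :
    Matrix (Fin r) (Fin r) ℂ := a - (1 - t) • (π * a - a * π)

variable {π a b : Matrix (Fin r) (Fin r) ℂ}

theorem F_one (t : ℂ) : F π t 1 = 1 := by simp [F]

theorem F_mul (hπ : π * π = π) (ha : π * (a * π) = a * π) (hb : π * (b * π) = b * π) (t : ℂ) :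
    F π t (a * b) = F π t a * F π t b := by
  have h1 : ∀ x, π * (π * x) = π * x := fun x => by rw [← mul_assoc, hπ]
  have h2 : ∀ x, π * (a * (π * x)) = a * (π * x) := fun x => by
    rw [← mul_assoc a, ← mul_assoc, ha]
  have h3 : π * (a * (b * π)) = a * (b * π) := by rw [← hb, h2]
  simp only [F, mul_sub, sub_mul, smul_sub, mul_assoc, smul_mul_assoc, mul_smul_comm, h1, h2, h3,
    hb]
  abel

theorem F_conj (ha : π * (a * π) = a * π) {t : ℂ} (ht : t ≠ 0) :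
    F π t a = (π + t⁻¹ • (1 - π)) * a * (π + t • (1 - π)) := by
  simp only [F, mul_sub, sub_mul, smul_sub, mul_add, add_mul, mul_assoc, smul_mul_assoc,
    mul_smul_comm, ha, one_mul, mul_one, smul_add, smul_smul, mul_inv_cancel₀ ht, one_smul,
    sub_smul]
  abel

theorem exists_sl {Q P : Matrix (Fin r) (Fin r) ℂ} (h : Q * P = 1) :
    ∃ A : SpecialLinearGroup (Fin r) ℂ, ∀ X : SpecialLinearGroup (Fin r) ℂ,
      (A * X * A⁻¹).1 = Q * X.1 * P := by
  have hd : Q.det * P.det = 1 := by rw [← det_mul, h, det_one]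
  obtain ⟨c, hc⟩ : ∃ c : ℂ, c ^ r = P.det := by
    rcases r.eq_zero_or_pos with rfl | hr
    · exact ⟨1, by simp⟩
    · exact IsAlgClosed.exists_pow_nat_eq _ hr
  let A : SpecialLinearGroup (Fin r) ℂ :=
    ⟨c • Q, by rw [det_smul, Fintype.card_fin, hc, mul_comm, hd]⟩
  have h1 : c • (A⁻¹).1 = P := by
    have h2 : (A⁻¹).1 * (c • Q) = 1 := congrArg Subtype.val (inv_mul_cancel A)
    rw [← one_mul P, ← h2, mul_assoc, smul_mul_assoc, h, mul_smul_comm, mul_one]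
  refine ⟨A, fun X => ?_⟩
  rw [← h1]
  change c • Q * X.1 * (A⁻¹).1 = _
  simp only [smul_mul_assoc, mul_smul_comm]

theorem continuous_F : Continuous fun t : ℂ => F π t a := by
  unfold F; fun_prop

theorem at_zero {f : ℂ → ℂ} (hf : Continuous f) {c : ℂ} (h : ∀ t ≠ 0, f t = c) (t : ℂ) :
    f t = c :=
  congrFun (Continuous.ext_on (dense_compl_singleton 0) hf continuous_const fun t ht => h t ht) t

theorem pq (hπ : π * π = π) {t : ℂ} (ht : t ≠ 0) :
    (π + t⁻¹ • (1 - π)) * (π + t • (1 - π)) = 1 := by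
  have := F_conj (π := π) (a := 1) (by rw [one_mul, hπ]) ht
  rw [F_one, mul_one] at this
  exact this.symm

theorem det_F (hπ : π * π = π) (ha : π * (a * π) = a * π) (hd : a.det = 1) (t : ℂ) :
    (F π t a).det = 1 := by
  refine at_zero (f := fun t => (F π t a).det) continuous_F.matrix_det (fun t ht => ?_) t
  have := congrArg det (pq hπ ht)
  rw [det_mul, det_one] at this
  rw [F_conj ha ht, det_mul, det_mul, hd, mul_one, this]

variable [Group G]

/-- the family of representations -/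
def fam (σ : G →* SpecialLinearGroup (Fin r) ℂ) (hπ : π * π = π)
    (ha : ∀ g, π * ((σ g).1 * π) = (σ g).1 * π) (t : ℂ) : G →* SpecialLinearGroup (Fin r) ℂ where
  toFun g := ⟨F π t (σ g).1, det_F hπ (ha g) (σ g).2 t⟩
  map_one' := Subtype.ext (show F π t (σ 1).1 = 1 by rw [map_one]; exact F_one t)
  map_mul' g h := Subtype.ext (show F π t (σ (g * h)).1 = F π t (σ g).1 * F π t (σ h).1 by
    rw [map_mul]; exact F_mul hπ (ha g) (ha h) t)

/-- the same values of all continuous invariant functions -/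
def Rel (σ σ' : G →* SpecialLinearGroup (Fin r) ℂ) : Prop :=
  ∀ φ : (G → Matrix (Fin r) (Fin r) ℂ) → ℂ, Continuous φ →
    (∀ (σ : G →* SpecialLinearGroup (Fin r) ℂ) (P : SpecialLinearGroup (Fin r) ℂ),
      φ (fun g => (P * σ g * P⁻¹).1) = φ (fun g => (σ g).1)) →
    φ (fun g => (σ' g).1) = φ (fun g => (σ g).1)

theorem rel_fam (σ : G →* SpecialLinearGroup (Fin r) ℂ) (hπ : π * π = π)
    (ha : ∀ g, π * ((σ g).1 * π) = (σ g).1 * π) (t : ℂ) : Rel σ (fam σ hπ ha t) := by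
  intro φ hφ hi
  refine at_zero (f := fun t => φ fun g => F π t (σ g).1)
    (hφ.comp (continuous_pi fun g => continuous_F)) (fun t ht => ?_) t
  obtain ⟨A, hA⟩ := exists_sl (pq hπ ht)
  rw [← hi σ A]
  exact congrArg φ (funext fun g => by rw [hA, F_conj (ha g) ht])

/-- one step: the socle grows -/
theorem step (σ : G →* SpecialLinearGroup (Fin r) ℂ) (h : Soc (fun g => (σ g).1) ≠ ⊤) :
    ∃ σ', Rel σ σ' ∧ Soc (fun g => (σ g).1) < Soc (fun g => (σ' g).1) := by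
  set S := Soc (fun g => (σ g).1) with hS
  obtain ⟨K, hK⟩ := Submodule.exists_isCompl S
  have hK0 : K ≠ ⊥ := fun e => h (by have := hK.sup_eq_top; rwa [e, sup_bot_eq] at this)
  let π := LinearMap.toMatrix' (S.projection K hK)
  have hv : ∀ v, π *ᵥ v = S.projection K hK v := fun v => by
    rw [← Matrix.toLin'_apply, Matrix.toLin'_toMatrix']
  have p1 : ∀ v, π *ᵥ v ∈ S := fun v => by rw [hv]; exact Submodule.projection_apply_mem hK v
  have p2 : ∀ v ∈ S, π *ᵥ v = v := fun v m => by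
    rw [hv]; exact Submodule.projection_apply_left hK ⟨v, m⟩
  have p3 : ∀ v ∈ K, π *ᵥ v = 0 := fun v m => by
    rw [hv]; exact Submodule.projection_apply_right hK ⟨v, m⟩
  have p4 : ∀ v, v - π *ᵥ v ∈ K := fun v => by rw [hv]; exact Submodule.sub_projection_mem hK v
  have hi : ∀ g, ∀ v ∈ S, (σ g).1 *ᵥ v ∈ S := inv_soc (ρ := fun g => (σ g).1)
  have hπ : π * π = π := ext_iff_mulVec.2 fun v => by rw [← mulVec_mulVec, p2 _ (p1 v)]
  have ha : ∀ g, π * ((σ g).1 * π) = (σ g).1 * π := fun g => ext_iff_mulVec.2 fun v => by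
    rw [← mulVec_mulVec, ← mulVec_mulVec, p2 _ (hi g _ (p1 v))]
  have hF : ∀ g v, (fam σ hπ ha 0 g).1 *ᵥ v =
      (σ g).1 *ᵥ v - (π *ᵥ ((σ g).1 *ᵥ v) - (σ g).1 *ᵥ (π *ᵥ v)) := fun g v => by
    change F π 0 (σ g).1 *ᵥ v = _
    simp only [F, sub_zero, one_smul, sub_mulVec, mulVec_mulVec]
  refine ⟨fam σ hπ ha 0, rel_fam σ hπ ha 0, lt_of_le_of_ne ?_ fun e => ?_⟩
  · refine sSup_le fun U hU => le_sSup (irr_congr (W := S) (fun g v m => ?_) (le_sSup hU) hU)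
    rw [hF, p2 v m, p2 _ (hi g v m), sub_self, sub_zero]
  · obtain ⟨U, hU, hI⟩ := exists_irr (ρ := fun g => (fam σ hπ ha 0 g).1) (W := K)
      (fun g v m => by rw [hF, p3 v m, mulVec_zero, sub_zero]; exact p4 _) hK0
    have : U ≤ S := e ▸ (le_sSup hI : U ≤ Soc _)
    exact hI.2.1 (le_bot_iff.1 (hK.disjoint this hU))

/-- **semisimplification** -/
theorem exists_ss (ρ : G →* SpecialLinearGroup (Fin r) ℂ) :
    ∃ ρ' : G →* SpecialLinearGroup (Fin r) ℂ,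
      (∀ W, Inv (fun g => (ρ' g).1) W → ∃ W', Inv (fun g => (ρ' g).1) W' ∧ IsCompl W W') ∧
        Rel ρ ρ' := by
  obtain ⟨_, ⟨σ, hσ, rfl⟩, hm⟩ := (wellFounded_gt (α := Submodule ℂ (Fin r → ℂ))).has_min
    {S | ∃ σ, Rel ρ σ ∧ Soc (fun g => (σ g).1) = S} ⟨_, ρ, fun _ _ _ => rfl, rfl⟩
  refine ⟨σ, fun W hW => compl_of_soc ?_ hW, hσ⟩
  by_contra hc
  obtain ⟨σ', h1, h2⟩ := step σ hc
  exact hm _ ⟨σ', fun φ a b => (h1 φ a b).trans (hσ φ a b), rfl⟩ h2

end Vale.Agent.P002S14
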