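import Vale.Agent.P002A30.Rows
import Vale.Agent.P002S14.Core

/-!
# P002: the row `SS`
-/

namespace Vale.Agent.P002A

theorem ss : SS := fun _ _ _ ρ => Vale.Agent.P002S14.exists_ss ρ

end Vale.Agent.P002A
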